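import Mathlib
import Vale.Agent.Lib.P328.helper74.ChainDefs
import Vale.Agent.Lib.P328.helper74.NegCorrCore

/-!
P328: the column step for the level sequences of a box (independent proof of the step
`Lor m w l q → Lor (m + C) (addW C w) (addL C t w l) (addQ C t w l q)`).
-/

namespace Vale.Agent.Lib.P328.helper81

open Finset
open Vale.Agent.Lib.P328.helper74

/-- The discriminant inequality of a nonnegative binary form. -/
theorem disc_of_psd {a b c : ℝ} (h : ∀ y z : ℝ, 0 ≤ a * y ^ 2 - 2 * b * y * z + c * z ^ 2) :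
    b ^ 2 ≤ a * c := by
  have ha : 0 ≤ a := by
    have := h 1 0
    simpa using this
  rcases ha.eq_or_lt with ha0 | hapos
  · have h1 := h (c + 1) b
    have h2 := h (-(c + 1)) b
    rw [← ha0] at h1 h2 ⊢
    have hc : 0 ≤ c := by
      have := h 0 1
      simpa using this
    nlinarith [sq_nonneg b]
  · have h1 := h b a
    have h2 : 0 ≤ a * (a * c - b ^ 2) := by nlinarith
    have h3 : 0 ≤ a * c - b ^ 2 := nonneg_of_mul_nonneg_right h2 hapos
    linarith

/-- Re-indexing of a window sum: a sum over `k ≤ C` of `f (r - k)` equals the sum over the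
sub-window `[a, a + N]` when `f` vanishes on the rest of `[r - C, r]`. -/
theorem sum_window (f : ℤ → ℝ) (r : ℤ) (C : ℕ) (a : ℤ) (N : ℕ)
    (h1 : r - (C : ℤ) ≤ a) (h2 : a + (N : ℤ) ≤ r)
    (hz : ∀ ρ : ℤ, r - (C : ℤ) ≤ ρ → ρ ≤ r → (ρ < a ∨ a + (N : ℤ) < ρ) → f ρ = 0) :
    ∑ k ∈ range (C + 1), f (r - (k : ℤ)) = ∑ i ∈ range (N + 1), f (a + (i : ℤ)) := by
  have hsub : (range (C + 1)).filter (fun k : ℕ => a ≤ r - (k : ℤ) ∧ r - (k : ℤ) ≤ a + (N : ℤ))
      ⊆ range (C + 1) := Finset.filter_subset _ _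
  rw [← Finset.sum_subset hsub]
  · refine Finset.sum_bij' (fun k _ => (r - (k : ℤ) - a).toNat)
      (fun i _ => (r - a - (i : ℤ)).toNat) ?_ ?_ ?_ ?_ ?_
    · intro k hk
      simp only [mem_filter, mem_range] at hk ⊢
      omega
    · intro i hi
      simp only [mem_filter, mem_range] at hi ⊢
      omega
    · intro k hk
      simp only [mem_filter, mem_range] at hk
      omega
    · intro i hi
      simp only [mem_range] at hi
      omega
    · intro k hk
      simp only [mem_filter, mem_range] at hk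
      congr 1
      omega
  · intro k hk hk'
    simp only [mem_filter, mem_range, not_and, not_le] at hk hk'
    apply hz
    · omega
    · omega
    · by_contra hcon
      push Not at hcon
      have := hk' hk hcon.1
      omega

/-- The window inequality in the form used by the column step (sequences indexed by `ℕ`). -/
theorem window_app (w l q : ℕ → ℝ) (y z s : ℝ) (N : ℕ)
    (hw : ∀ i ≤ N, 0 < w i) (hw1 : 0 ≤ w (N + 1))
    (hS : ∀ i ≤ N, ∀ y z : ℝ,
      0 ≤ (w (i + 1) ^ 2 - w i * w (i + 2)) * y ^ 2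
        - 2 * (w i * l (i + 1) - w (i + 1) * l i) * y * z
        + (l i ^ 2 - w i * q i) * z ^ 2) :
    (∑ i ∈ range (N + 1), w i)
        * (∑ i ∈ range (N + 1), (w (i + 2) * y ^ 2 + 2 * l (i + 1) * y * z + q i * z ^ 2)
            + 2 * s * (w 1 * y + l 0 * z) + s ^ 2 * (w 0 - w 1))
      ≤ (∑ i ∈ range (N + 1), (w (i + 1) * y + l i * z) + s * w 0) ^ 2 := by
  obtain ⟨ξ, hξ⟩ : ∃ ξ : ℕ → ℝ, ∀ i, ξ i = w (i + 1) * y + l i * z := ⟨_, fun _ => rfl⟩
  obtain ⟨P, hP⟩ : ∃ P : ℕ → ℝ, ∀ i, P i = (w (i + 1) ^ 2 - w i * w (i + 2)) * y ^ 2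
        - 2 * (w i * l (i + 1) - w (i + 1) * l i) * y * z
        + (l i ^ 2 - w i * q i) * z ^ 2 := ⟨_, fun _ => rfl⟩
  obtain ⟨φ, hφ⟩ : ∃ φ : ℕ → ℝ, ∀ i, φ i = ξ i / w i := ⟨_, fun _ => rfl⟩
  obtain ⟨e, he⟩ : ∃ e : ℕ → ℝ, ∀ i, e i = P i / (w i * w (i + 1)) := ⟨_, fun _ => rfl⟩
  have hPnn : ∀ i ≤ N, 0 ≤ P i := fun i hi => by
    rw [hP]
    exact hS i hi y z
  have hα : ∀ i ≤ N, w i * w (i + 2) ≤ w (i + 1) ^ 2 := by
    intro i hi
    have := hS i hi 1 0
    simp at this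
    linarith
  have hdisc : ∀ i ≤ N, (w i * l (i + 1) - w (i + 1) * l i) ^ 2
      ≤ (w (i + 1) ^ 2 - w i * w (i + 2)) * (l i ^ 2 - w i * q i) :=
    fun i hi => disc_of_psd (hS i hi)
  have hcore := core_slack w φ e s N hw
    (by
      intro i hi
      have h1 := hw i (le_of_lt hi)
      have h2 := hw (i + 1) hi
      rw [he]
      exact div_nonneg (hPnn i (le_of_lt hi)) (le_of_lt (mul_pos h1 h2)))
    (fun i hi => hα i (le_of_lt hi))
    (by
      intro i hi
      have h1 := hw i (le_of_lt hi)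
      have h2 := hw (i + 1) hi
      have hd := hdisc i (le_of_lt hi)
      have e1 : φ (i + 1) - φ i = (-(w (i + 1) ^ 2 - w i * w (i + 2)) * y
          + (w i * l (i + 1) - w (i + 1) * l i) * z) / (w i * w (i + 1)) := by
        rw [hφ, hφ, hξ, hξ]
        field_simp
        ring
      have e2 : (w (i + 1) / w i - w (i + 2) / w (i + 1)) * e i
          = ((w (i + 1) ^ 2 - w i * w (i + 2)) * P i) / (w i * w (i + 1)) ^ 2 := by
        rw [he]
        field_simp
      rw [e1, e2, div_pow]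
      apply div_le_div_of_nonneg_right _ (by positivity)
      rw [hP]
      nlinarith [mul_nonneg (sub_nonneg.mpr hd) (sq_nonneg z)])
  -- evaluate the two sides of the path inequality
  have hwne : ∀ i ∈ range (N + 1), w i ≠ 0 := fun i hi =>
    ne_of_gt (hw i (Nat.lt_succ_iff.mp (Finset.mem_range.mp hi)))
  have hXnn : ∀ t ≤ N, 0 ≤ Xs w t := by
    intro t ht
    unfold Xs
    apply Finset.sum_nonneg
    intro i hi
    exact le_of_lt (hw i (le_trans (Nat.lt_succ_iff.mp (Finset.mem_range.mp hi)) ht))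
  have hsum1 : ∑ i ∈ range (N + 1), w i * (φ i + if i = 0 then s else 0)
      = ∑ i ∈ range (N + 1), ξ i + s * w 0 := by
    have hterm : ∀ i ∈ range (N + 1), w i * (φ i + if i = 0 then s else 0)
        = ξ i + (if i = 0 then s * w 0 else 0) := by
      intro i hi
      have hne := hwne i hi
      rw [hφ]
      by_cases h0 : i = 0
      · subst h0
        simp only [if_true]
        field_simp
      · simp only [h0, if_false]
        field_simp
        ring
    rw [Finset.sum_congr rfl hterm, Finset.sum_add_distrib, Finset.sum_ite_eq' (range (N + 1)) 0]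
    simp
  have hsum2 : ∑ i ∈ range (N + 1), w i * (φ i + if i = 0 then s else 0) ^ 2
      = ∑ i ∈ range (N + 1), ξ i ^ 2 / w i + (2 * s * ξ 0 + s ^ 2 * w 0) := by
    have hterm : ∀ i ∈ range (N + 1), w i * (φ i + if i = 0 then s else 0) ^ 2
        = ξ i ^ 2 / w i + (if i = 0 then 2 * s * ξ 0 + s ^ 2 * w 0 else 0) := by
      intro i hi
      have hne := hwne i hi
      rw [hφ]
      by_cases h0 : i = 0
      · subst h0
        simp only [if_true]
        field_simp
        ring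
      · simp only [h0, if_false]
        field_simp
        ring
    rw [Finset.sum_congr rfl hterm, Finset.sum_add_distrib, Finset.sum_ite_eq' (range (N + 1)) 0]
    simp
  have hsumT : ∑ i ∈ range (N + 1), (w (i + 2) * y ^ 2 + 2 * l (i + 1) * y * z + q i * z ^ 2)
      = ∑ i ∈ range (N + 1), ξ i ^ 2 / w i - ∑ i ∈ range (N + 1), P i / w i := by
    rw [← Finset.sum_sub_distrib]
    refine Finset.sum_congr rfl (fun i hi => ?_)
    have hne := hwne i hi
    rw [hξ, hP]
    field_simp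
    ring
  have hsplitP : ∑ i ∈ range (N + 1), P i / w i = ∑ t ∈ range N, P t / w t + P N / w N :=
    Finset.sum_range_succ _ N
  have hPN : 0 ≤ P N / w N := div_nonneg (hPnn N le_rfl) (le_of_lt (hw N le_rfl))
  have hUb : Ub w e s N ≤ Xs w N * (∑ t ∈ range N, P t / w t) + s ^ 2 * (w 1 * Xs w N) := by
    unfold Ub
    have h1 : ∑ t ∈ range N, e t * (w (t + 1) * Xs w N - w (N + 1) * Xs w t)
        ≤ ∑ t ∈ range N, Xs w N * (P t / w t) := by
      apply Finset.sum_le_sum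
      intro t ht
      have htN : t < N := Finset.mem_range.mp ht
      have hw_t := hw t (le_of_lt htN)
      have hw_t1 := hw (t + 1) htN
      have het : 0 ≤ e t := by
        rw [he]
        exact div_nonneg (hPnn t (le_of_lt htN)) (le_of_lt (mul_pos hw_t hw_t1))
      have e1 : e t * w (t + 1) = P t / w t := by
        rw [he]
        field_simp
      have h2 : 0 ≤ e t * (w (N + 1) * Xs w t) :=
        mul_nonneg het (mul_nonneg hw1 (hXnn t (le_of_lt htN)))
      have e3 : e t * (w (t + 1) * Xs w N - w (N + 1) * Xs w t)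
          = Xs w N * (e t * w (t + 1)) - e t * (w (N + 1) * Xs w t) := by ring
      rw [e3, e1]
      linarith
    rw [← Finset.mul_sum] at h1
    have h3 : 0 ≤ s ^ 2 * (w 0 * w (N + 1)) :=
      mul_nonneg (sq_nonneg s) (mul_nonneg (le_of_lt (hw 0 (Nat.zero_le N))) hw1)
    have e4 : s ^ 2 * (w 1 * Xs w N - w 0 * w (N + 1))
        = s ^ 2 * (w 1 * Xs w N) - s ^ 2 * (w 0 * w (N + 1)) := by ring
    rw [e4]
    linarith
  have hX : Xs w N = ∑ i ∈ range (N + 1), w i := rfl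
  have hXN : 0 ≤ Xs w N := hXnn N le_rfl
  have hξ0 : ξ 0 = w 1 * y + l 0 * z := by
    rw [hξ]
  unfold Vb at hcore
  rw [hsum1, hsum2] at hcore
  rw [hsumT, ← hX, ← hξ0, hsplitP]
  have hlast : 0 ≤ Xs w N * (P N / w N) := mul_nonneg hXN hPN
  have hgoal : Xs w N * (∑ i ∈ range (N + 1), ξ i ^ 2 / w i
        - (∑ t ∈ range N, P t / w t + P N / w N) + 2 * s * ξ 0 + s ^ 2 * (w 0 - w 1))
      = Xs w N * (∑ i ∈ range (N + 1), ξ i ^ 2 / w i + (2 * s * ξ 0 + s ^ 2 * w 0))
        - (Xs w N * (∑ t ∈ range N, P t / w t) + s ^ 2 * (w 1 * Xs w N))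
        - Xs w N * (P N / w N) := by ring
  have hξsum : ∑ i ∈ range (N + 1), (w (i + 1) * y + l i * z) = ∑ i ∈ range (N + 1), ξ i :=
    Finset.sum_congr rfl (fun i _ => (hξ i).symm)
  rw [hgoal, hξsum]
  linarith

/-- The window inequality for `ℤ`-indexed sequences on the window `[a, a + N]`. -/
theorem window_appZ (w l q : ℤ → ℝ) (y z s : ℝ) (a : ℤ) (N : ℕ)
    (hw : ∀ i : ℕ, i ≤ N → 0 < w (a + (i : ℤ))) (hw1 : 0 ≤ w (a + (N : ℤ) + 1))
    (hS : ∀ i : ℕ, i ≤ N → ∀ y z : ℝ,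
      0 ≤ (w (a + (i : ℤ) + 1) ^ 2 - w (a + (i : ℤ)) * w (a + (i : ℤ) + 2)) * y ^ 2
        - 2 * (w (a + (i : ℤ)) * l (a + (i : ℤ) + 1) - w (a + (i : ℤ) + 1) * l (a + (i : ℤ))) * y * z
        + (l (a + (i : ℤ)) ^ 2 - w (a + (i : ℤ)) * q (a + (i : ℤ))) * z ^ 2) :
    (∑ i ∈ range (N + 1), w (a + (i : ℤ)))
        * (∑ i ∈ range (N + 1), (w (a + (i : ℤ) + 2) * y ^ 2 + 2 * l (a + (i : ℤ) + 1) * y * z
              + q (a + (i : ℤ)) * z ^ 2)
            + 2 * s * (w (a + 1) * y + l a * z) + s ^ 2 * (w a - w (a + 1)))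
      ≤ (∑ i ∈ range (N + 1), (w (a + (i : ℤ) + 1) * y + l (a + (i : ℤ)) * z) + s * w a) ^ 2 := by
  have e1 : ∀ i : ℕ, a + ((i + 1 : ℕ) : ℤ) = a + (i : ℤ) + 1 := by
    intro i
    push_cast
    ring
  have e2 : ∀ i : ℕ, a + ((i + 2 : ℕ) : ℤ) = a + (i : ℤ) + 2 := by
    intro i
    push_cast
    ring
  have key := window_app (fun i : ℕ => w (a + (i : ℤ))) (fun i : ℕ => l (a + (i : ℤ)))
    (fun i : ℕ => q (a + (i : ℤ))) y z s N hw
    (by
      show 0 ≤ w (a + ((N + 1 : ℕ) : ℤ))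
      rw [e1]
      exact hw1)
    (by
      intro i hi y z
      show 0 ≤ (w (a + ((i + 1 : ℕ) : ℤ)) ^ 2 - w (a + (i : ℤ)) * w (a + ((i + 2 : ℕ) : ℤ))) * y ^ 2
        - 2 * (w (a + (i : ℤ)) * l (a + ((i + 1 : ℕ) : ℤ))
            - w (a + ((i + 1 : ℕ) : ℤ)) * l (a + (i : ℤ))) * y * z
        + (l (a + (i : ℤ)) ^ 2 - w (a + (i : ℤ)) * q (a + (i : ℤ))) * z ^ 2
      rw [e2, e1]
      exact hS i hi y z)
  have k1 : (∑ i ∈ range (N + 1), (w (a + ((i + 2 : ℕ) : ℤ)) * y ^ 2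
        + 2 * l (a + ((i + 1 : ℕ) : ℤ)) * y * z + q (a + (i : ℤ)) * z ^ 2))
      = ∑ i ∈ range (N + 1), (w (a + (i : ℤ) + 2) * y ^ 2 + 2 * l (a + (i : ℤ) + 1) * y * z
              + q (a + (i : ℤ)) * z ^ 2) :=
    Finset.sum_congr rfl (fun i _ => by rw [e2, e1])
  have k2 : (∑ i ∈ range (N + 1), (w (a + ((i + 1 : ℕ) : ℤ)) * y + l (a + (i : ℤ)) * z))
      = ∑ i ∈ range (N + 1), (w (a + (i : ℤ) + 1) * y + l (a + (i : ℤ)) * z) :=
    Finset.sum_congr rfl (fun i _ => by rw [e1])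
  have k3 : a + ((0 : ℕ) : ℤ) = a := by simp
  have k4 : a + ((1 : ℕ) : ℤ) = a + 1 := by simp
  have key' : (∑ i ∈ range (N + 1), w (a + (i : ℤ)))
        * (∑ i ∈ range (N + 1), (w (a + ((i + 2 : ℕ) : ℤ)) * y ^ 2
              + 2 * l (a + ((i + 1 : ℕ) : ℤ)) * y * z + q (a + (i : ℤ)) * z ^ 2)
            + 2 * s * (w (a + ((1 : ℕ) : ℤ)) * y + l (a + ((0 : ℕ) : ℤ)) * z)
            + s ^ 2 * (w (a + ((0 : ℕ) : ℤ)) - w (a + ((1 : ℕ) : ℤ))))
      ≤ (∑ i ∈ range (N + 1), (w (a + ((i + 1 : ℕ) : ℤ)) * y + l (a + (i : ℤ)) * z)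
            + s * w (a + ((0 : ℕ) : ℤ))) ^ 2 := key
  rw [k1, k2, k3, k4] at key'
  exact key'

/-- Shifting a window that starts at `-1`. -/
theorem sum_shift1 (f : ℤ → ℝ) (n : ℕ) :
    ∑ i ∈ range (n + 1 + 1), f (-1 + (i : ℤ)) = f (-1) + ∑ i ∈ range (n + 1), f (0 + (i : ℤ)) := by
  rw [Finset.sum_range_succ']
  have e : ∀ i : ℕ, (-1 : ℤ) + ((i + 1 : ℕ) : ℤ) = 0 + (i : ℤ) := by
    intro i
    push_cast
    ring
  have e0 : (-1 : ℤ) + ((0 : ℕ) : ℤ) = -1 := by simp
  rw [e0, Finset.sum_congr rfl (fun i _ => by rw [e i])]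
  ring

/-- Shifting a window that starts at `-2`. -/
theorem sum_shift2 (f : ℤ → ℝ) (n : ℕ) :
    ∑ i ∈ range (n + 2 + 1), f (-2 + (i : ℤ))
      = f (-2) + f (-1) + ∑ i ∈ range (n + 1), f (0 + (i : ℤ)) := by
  rw [Finset.sum_range_succ', Finset.sum_range_succ']
  have e : ∀ i : ℕ, (-2 : ℤ) + ((i + 1 + 1 : ℕ) : ℤ) = 0 + (i : ℤ) := by
    intro i
    push_cast
    ring
  have e0 : (-2 : ℤ) + ((0 : ℕ) : ℤ) = -2 := by simp
  have e1 : (-2 : ℤ) + ((0 + 1 : ℕ) : ℤ) = -1 := by norm_num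
  rw [e0, e1, Finset.sum_congr rfl (fun i _ => by rw [e i])]
  ring

/-- The column step preserves `Lor`. -/
theorem Lor_step' {m : ℕ} {w l q : ℤ → ℝ} (C : ℕ) (t : ℝ) (h : Lor m w l q) :
    Lor (m + C) (addW C w) (addL C t w l) (addQ C t w l q) := by
  obtain ⟨hpos, hw0, hl0, hq0, hS⟩ := h
  have hwnn : ∀ ρ : ℤ, 0 ≤ w ρ := by
    intro ρ
    by_cases hin : 0 ≤ ρ ∧ ρ ≤ (m : ℤ)
    · exact le_of_lt (hpos ρ hin.1 hin.2)
    · rw [hw0 ρ (by omega)]
  refine ⟨?_, ?_, ?_, ?_, ?_⟩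
  · intro r h0 hm
    unfold addW
    push_cast at hm
    have hk0 : (r - (m : ℤ)).toNat ∈ range (C + 1) := by
      simp only [mem_range]
      omega
    exact Finset.sum_pos' (fun k _ => hwnn _)
      ⟨(r - (m : ℤ)).toNat, hk0, hpos _ (by omega) (by omega)⟩
  · intro r hr
    unfold addW
    push_cast at hr
    apply Finset.sum_eq_zero
    intro k hk
    simp only [mem_range] at hk
    exact hw0 _ (by omega)
  · intro r hr
    unfold addL
    push_cast at hr
    rw [Finset.sum_eq_zero (fun k hk => hl0 _ (by simp only [mem_range] at hk; omega)),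
      hw0 (r - (C : ℤ)) (by omega)]
    simp
  · intro r hr
    unfold addQ
    push_cast at hr
    rw [Finset.sum_eq_zero (fun k hk => hq0 _ (by simp only [mem_range] at hk; omega)),
      hl0 (r - (C : ℤ)) (by omega), hw0 (r - (C : ℤ)) (by omega)]
    by_cases hC : 1 ≤ C
    · rw [if_pos hC, hw0 (r - (C : ℤ) + 1) (by omega)]
      simp
    · rw [if_neg hC]
      simp
  · intro r h0 hm y z
    push_cast at hm
    obtain ⟨T, hT⟩ : ∃ T : ℤ → ℝ, ∀ ρ, T ρ
        = w (ρ + 2) * y ^ 2 + 2 * l (ρ + 1) * y * z + q ρ * z ^ 2 := ⟨_, fun _ => rfl⟩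
    obtain ⟨ξ, hξ⟩ : ∃ ξ : ℤ → ℝ, ∀ ρ, ξ ρ = w (ρ + 1) * y + l ρ * z := ⟨_, fun _ => rfl⟩
    have eT : addW C w (r + 2) * y ^ 2 + 2 * addL C t w l (r + 1) * y * z
          + addQ C t w l q r * z ^ 2
        = ∑ k ∈ range (C + 1), T (r - (k : ℤ)) + 2 * (t * z) * ξ (r - (C : ℤ))
          + (t * z) ^ 2 * (w (r - (C : ℤ)) - if 1 ≤ C then w (r - (C : ℤ) + 1) else 0) := by
      have e1 : ∀ k : ℕ, r + 2 - (k : ℤ) = r - (k : ℤ) + 2 := fun k => by ring
      have e2 : ∀ k : ℕ, r + 1 - (k : ℤ) = r - (k : ℤ) + 1 := fun k => by ring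
      simp only [addW, addL, addQ, e1, e2, hT, hξ, Finset.sum_add_distrib, ← Finset.sum_mul,
        ← Finset.mul_sum]
      ring
    have eΞ : addW C w (r + 1) * y + addL C t w l r * z
        = ∑ k ∈ range (C + 1), ξ (r - (k : ℤ)) + (t * z) * w (r - (C : ℤ)) := by
      have e2 : ∀ k : ℕ, r + 1 - (k : ℤ) = r - (k : ℤ) + 1 := fun k => by ring
      simp only [addW, addL, e2, hξ, Finset.sum_add_distrib, ← Finset.sum_mul]
      ring
    have hred : (addW C w (r + 1) ^ 2 - addW C w r * addW C w (r + 2)) * y ^ 2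
        - 2 * (addW C w r * addL C t w l (r + 1) - addW C w (r + 1) * addL C t w l r) * y * z
        + (addL C t w l r ^ 2 - addW C w r * addQ C t w l q r) * z ^ 2
        = (addW C w (r + 1) * y + addL C t w l r * z) ^ 2
          - addW C w r * (addW C w (r + 2) * y ^ 2 + 2 * addL C t w l (r + 1) * y * z
              + addQ C t w l q r * z ^ 2) := by ring
    rw [hred, eT, eΞ, sub_nonneg]
    generalize t * z = σ
    simp only [addW]
    have hTz : ∀ ρ : ℤ, (m : ℤ) < ρ → T ρ = 0 := by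
      intro ρ hρ
      rw [hT, hw0 _ (by omega), hl0 _ (by omega), hq0 _ (by omega)]
      ring
    have hTz' : ∀ ρ : ℤ, ρ < -2 → T ρ = 0 := by
      intro ρ hρ
      rw [hT, hw0 _ (by omega), hl0 _ (by omega), hq0 _ (by omega)]
      ring
    have hT2 : T (-2) = w 0 * y ^ 2 := by
      rw [hT, hl0 _ (by omega), hq0 _ (by omega)]
      norm_num
    have hT1 : T (-1) = w 1 * y ^ 2 + 2 * l 0 * y * z := by
      rw [hT, hq0 _ (by omega)]
      norm_num
    have hξz : ∀ ρ : ℤ, (m : ℤ) < ρ → ξ ρ = 0 := by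
      intro ρ hρ
      rw [hξ, hw0 _ (by omega), hl0 _ (by omega)]
      ring
    have hξz' : ∀ ρ : ℤ, ρ < -1 → ξ ρ = 0 := by
      intro ρ hρ
      rw [hξ, hw0 _ (by omega), hl0 _ (by omega)]
      ring
    have hξ1 : ξ (-1) = w 0 * y := by
      rw [hξ, hl0 _ (by omega)]
      norm_num
    have hP : ∀ ρ : ℤ, 0 ≤ ρ → ρ ≤ (m : ℤ) → w ρ * T ρ ≤ ξ ρ ^ 2 := by
      intro ρ h1 h2
      have := hS ρ h1 h2 y z
      rw [hT, hξ]
      nlinarith [this]
    rcases Nat.eq_zero_or_pos C with hC0 | hCpos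
    · subst hC0
      have hm' : r ≤ (m : ℤ) := by simpa using hm
      have := hP r h0 hm'
      norm_num [Finset.sum_range_one]
      nlinarith [this]
    · have hC1 : 1 ≤ C := hCpos
      rw [if_pos hC1]
      obtain ⟨N', hN1, hN2, hN3⟩ : ∃ N' : ℕ, (N' : ℤ) ≤ r ∧ (N' : ℤ) ≤ (m : ℤ)
          ∧ ((N' : ℤ) = r ∨ (N' : ℤ) = (m : ℤ)) := by
        rcases le_total r (m : ℤ) with hrm | hrm
        · exact ⟨r.toNat, by omega, by omega, Or.inl (by omega)⟩
        · exact ⟨m, hrm, le_rfl, Or.inr rfl⟩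
      by_cases ha : 0 ≤ r - (C : ℤ)
      · obtain ⟨N, hN⟩ : ∃ N : ℕ, r - (C : ℤ) + (N : ℤ) = (N' : ℤ) :=
          ⟨((N' : ℤ) - (r - (C : ℤ))).toNat, by omega⟩
        have hwin : ∀ f : ℤ → ℝ, (∀ ρ : ℤ, (m : ℤ) < ρ → f ρ = 0) →
            ∑ k ∈ range (C + 1), f (r - (k : ℤ))
              = ∑ i ∈ range (N + 1), f (r - (C : ℤ) + (i : ℤ)) := by
          intro f hf
          apply sum_window f r C (r - (C : ℤ)) N le_rfl (by omega)
          intro ρ h1 h2 h3
          exact hf ρ (by omega)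
        rw [hwin w (fun ρ hρ => hw0 ρ (Or.inr hρ)), hwin T hTz, hwin ξ hξz]
        have key := window_appZ w l q y z σ (r - (C : ℤ)) N
          (fun i hi => hpos _ (by omega) (by omega)) (hwnn _)
          (fun i hi y z => hS _ (by omega) (by omega) y z)
        simp only [hT, hξ]
        exact key
      · have hwinw : ∑ k ∈ range (C + 1), w (r - (k : ℤ))
            = ∑ i ∈ range (N' + 1), w (0 + (i : ℤ)) :=
          sum_window w r C 0 N' (by omega) (by omega) (fun ρ h1 h2 h3 => hw0 ρ (by omega))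
        have key := window_appZ w l q y z y 0 N'
          (fun i hi => hpos _ (by omega) (by omega)) (hwnn _)
          (fun i hi y z => hS _ (by omega) (by omega) y z)
        have hA : 0 ≤ ∑ i ∈ range (N' + 1), w (0 + (i : ℤ)) :=
          Finset.sum_nonneg (fun i _ => hwnn _)
        have hsT : ∑ i ∈ range (N' + 1), T (0 + (i : ℤ))
            = ∑ i ∈ range (N' + 1), (w (0 + (i : ℤ) + 2) * y ^ 2
                + 2 * l (0 + (i : ℤ) + 1) * y * z + q (0 + (i : ℤ)) * z ^ 2) :=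
          Finset.sum_congr rfl (fun i _ => hT _)
        have hsξ : ∑ i ∈ range (N' + 1), ξ (0 + (i : ℤ))
            = ∑ i ∈ range (N' + 1), (w (0 + (i : ℤ) + 1) * y + l (0 + (i : ℤ)) * z) :=
          Finset.sum_congr rfl (fun i _ => hξ _)
        have k01 : w ((0 : ℤ) + 1) = w 1 := by norm_num
        rw [k01] at key
        by_cases ha1 : r - (C : ℤ) = -1
        · have hwinT : ∑ k ∈ range (C + 1), T (r - (k : ℤ))
              = ∑ i ∈ range (N' + 1 + 1), T (-1 + (i : ℤ)) :=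
            sum_window T r C (-1) (N' + 1) (by omega) (by push_cast; omega)
              (fun ρ h1 h2 h3 => hTz ρ (by push_cast at h3; omega))
          have hwinξ : ∑ k ∈ range (C + 1), ξ (r - (k : ℤ))
              = ∑ i ∈ range (N' + 1 + 1), ξ (-1 + (i : ℤ)) :=
            sum_window ξ r C (-1) (N' + 1) (by omega) (by push_cast; omega)
              (fun ρ h1 h2 h3 => hξz ρ (by push_cast at h3; omega))
          have k10 : w ((-1 : ℤ) + 1) = w 0 := by norm_num
          rw [hwinw, hwinT, hwinξ, sum_shift1, sum_shift1, ha1, hT1, hξ1, hw0 (-1) (by omega),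
            k10, hsT, hsξ]
          nlinarith [key, mul_nonneg (mul_nonneg hA (hwnn 0)) (sq_nonneg (y - σ))]
        · have hwinT : ∑ k ∈ range (C + 1), T (r - (k : ℤ))
              = ∑ i ∈ range (N' + 2 + 1), T (-2 + (i : ℤ)) :=
            sum_window T r C (-2) (N' + 2) (by omega) (by push_cast; omega)
              (fun ρ h1 h2 h3 => by
                rcases h3 with h3 | h3
                · exact hTz' ρ h3
                · exact hTz ρ (by push_cast at h3; omega))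
          have hwinξ : ∑ k ∈ range (C + 1), ξ (r - (k : ℤ))
              = ∑ i ∈ range (N' + 1 + 1), ξ (-1 + (i : ℤ)) :=
            sum_window ξ r C (-1) (N' + 1) (by omega) (by push_cast; omega)
              (fun ρ h1 h2 h3 => by
                rcases h3 with h3 | h3
                · exact hξz' ρ h3
                · exact hξz ρ (by push_cast at h3; omega))
          rw [hwinw, hwinT, hwinξ, sum_shift2, sum_shift1, hT2, hT1, hξ1,
            hξz' (r - (C : ℤ)) (by omega), hw0 (r - (C : ℤ)) (by omega),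
            hw0 (r - (C : ℤ) + 1) (by omega), hsT, hsξ]
          nlinarith [key]

end Vale.Agent.Lib.P328.helper81
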